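import Vale.Agent.P347.H941.Diag
import Vale.Agent.P347.H941.Full
import Vale.Agent.P347Z.Low.Main

/-! Hand-in for P347: both bounds, `c log d ≤ Q(d) ≤ C d ^ δ`. -/

open MeasureTheory Filter

namespace Vale.Agent.Results.P347.AGrowth

open Vale.Agent.P347

/-- (1) `Q(d)` is attained and `Q(d) ≤ C d ^ δ` for every `δ > 0`. (2) `9 d / 10 ≤ 2 ^ (25 (Q(d) + 1))`,
so `Q(d) ≥ c log d` for large `d`. (3) The dimension exponent is `0`. (4) The lower bound for every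
accuracy `θ`, already for the Gaussian targets of the class: an algorithm with `q` queries and total
variation error at most `θ` has 2 ^ (25 (q + 1)) ≥ (1 - θ) d. -/
theorem result :
    ((∀ d : ℕ, 1 ≤ d → ∃ A : Algo d (Q d), A.Good) ∧
      ∀ δ : ℝ, 0 < δ → ∃ C : ℝ, ∀ d : ℕ, 1 ≤ d → (Q d : ℝ) ≤ C * (d : ℝ) ^ δ) ∧
    ((∀ d : ℕ, 1 ≤ d → 9 / 10 * (d : ℝ) ≤ 2 ^ (25 * (Q d + 1))) ∧
      ∃ c : ℝ, 0 < c ∧ ∀ᶠ d : ℕ in atTop, c * Real.log d ≤ Q d) ∧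
    (Tendsto (fun d : ℕ => Real.log (Q d) / Real.log d) atTop (nhds 0) ∧
      limsup (fun d : ℕ => ((Real.log (Q d) / Real.log d : ℝ) : EReal)) atTop = 0) ∧
    ∀ (d q : ℕ) (A : Algo d q) (θ : ℝ), A.SamplesWithin (GaussClass d) θ →
      (1 - θ) * d ≤ 2 ^ (25 * (q + 1)) := by
  have hup : ∀ δ : ℝ, 0 < δ → ∃ C : ℝ, ∀ d : ℕ, 1 ≤ d → ∃ q : ℕ, (q : ℝ) ≤ C * (d : ℝ) ^ δ ∧
      ∃ A : Algo d q, A.Good := by
    intro δ hδ
    obtain ⟨C, -, hC⟩ := K.full δ hδ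
    refine ⟨C * 2 * 20 ^ δ, fun d hd => ?_⟩
    obtain ⟨q, hq, A, hA⟩ := hC d 2 0 (1 / 10) hd (by norm_num) le_rfl (by norm_num) (by norm_num)
    have hA' : A.SamplesWithin (WellCond d 2 0) (1 / 10) := hA
    refine ⟨q, hq.trans (le_of_eq ?_), A, fun V hV => hA' V ⟨hV.1, ?_, hV.2.2.2⟩⟩
    · rw [show (2 : ℝ) * d * (1 + 0) / (1 / 10) = 20 * d by ring,
        Real.mul_rpow (by norm_num) (Nat.cast_nonneg d)]
      ring
    · rw [hV.2.2.1, norm_zero]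
  have hatt : ∀ d : ℕ, 1 ≤ d → ∃ A : Algo d (Q d), A.Good := by
    intro d hd
    obtain ⟨C, hC⟩ := hup 1 one_pos
    obtain ⟨q, -, hq⟩ := hC d hd
    exact Nat.sInf_mem (s := {q | ∃ A : Algo d q, A.Good}) ⟨q, hq⟩
  have hlow : ∀ d : ℕ, 1 ≤ d → 9 / 10 * (d : ℝ) ≤ 2 ^ (25 * (Q d + 1)) := by
    intro d hd
    obtain ⟨A, hA⟩ := hatt d hd
    have h := Low.lower A (θ := 1 / 10) fun V hV => hA V hV.1
    linarith
  have hT := tendsto_log_div (f := Q) (fun δ hδ => Q_le hδ)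
  refine ⟨⟨hatt, fun δ hδ => ?_⟩, ⟨hlow, 1 / 50, by norm_num, ?_⟩,
    ⟨hT, ((continuous_coe_real_ereal.tendsto 0).comp hT).limsup_eq⟩,
    fun d q A θ h => Low.lower A h⟩
  · obtain ⟨C, hC⟩ := hup δ hδ
    refine ⟨C, fun d hd => ?_⟩
    obtain ⟨q, hq, hA⟩ := hC d hd
    have h1 : Q d ≤ q := Nat.sInf_le (show q ∈ {q | ∃ A : Algo d q, A.Good} from hA)
    exact le_trans (by exact_mod_cast h1) hq
  · have hl : Tendsto (fun d : ℕ => Real.log d) atTop atTop :=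
      Real.tendsto_log_atTop.comp tendsto_natCast_atTop_atTop
    filter_upwards [hl.eventually_ge_atTop 52, eventually_ge_atTop 1] with d h52 hd
    have h1 := hlow d hd
    have hd0 : (0 : ℝ) < d := by exact_mod_cast hd
    have h2 : (d : ℝ) ≤ 2 ^ (25 * (Q d + 1) + 1) := by
      rw [pow_succ]
      linarith
    have h3 := Real.log_le_log hd0 h2
    rw [Real.log_pow] at h3
    have h4 : Real.log 2 ≤ 1 := by
      have := Real.log_two_lt_d9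
      linarith
    have h5 : ((25 * (Q d + 1) + 1 : ℕ) : ℝ) * Real.log 2 ≤ ((25 * (Q d + 1) + 1 : ℕ) : ℝ) :=
      mul_le_of_le_one_right (Nat.cast_nonneg _) h4
    push_cast at h3 h5
    linarith

end Vale.Agent.Results.P347.AGrowth
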